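import Vale.Agent.Lib.P229.Surf

/-!
# P229: local smooth realization of metrics whose coefficients depend on one coordinate
-/

namespace Vale.Agent.Lib.P229

open scoped ContDiff

theorem exists_realization (E F G : ℝ → ℝ) (s : Set ℝ) (hs : IsOpen s)
    (hE : ContDiffOn ℝ ∞ E s) (hF : ContDiffOn ℝ ∞ F s) (hG : ContDiffOn ℝ ∞ G s)
    (x₀ y₀ : ℝ) (hx₀ : x₀ ∈ s) (hEpos : 0 < E x₀) (hdet : 0 < E x₀ * G x₀ - F x₀ ^ 2) :
    ∃ U : Set (ℝ × ℝ), IsOpen U ∧ (x₀, y₀) ∈ U ∧ ∃ X Y Z : ℝ × ℝ → ℝ,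
      ContDiffOn ℝ ∞ X U ∧ ContDiffOn ℝ ∞ Y U ∧ ContDiffOn ℝ ∞ Z U ∧
      ∀ q ∈ U,
        (fderiv ℝ X q (1, 0)) ^ 2 + (fderiv ℝ Y q (1, 0)) ^ 2 + (fderiv ℝ Z q (1, 0)) ^ 2
          = E q.1 ∧
        fderiv ℝ X q (1, 0) * fderiv ℝ X q (0, 1) + fderiv ℝ Y q (1, 0) * fderiv ℝ Y q (0, 1)
          + fderiv ℝ Z q (1, 0) * fderiv ℝ Z q (0, 1) = F q.1 ∧
        (fderiv ℝ X q (0, 1)) ^ 2 + (fderiv ℝ Y q (0, 1)) ^ 2 + (fderiv ℝ Z q (0, 1)) ^ 2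
          = G q.1 := by
  have hGpos : 0 < G x₀ := by
    by_contra hcon
    have h1 : G x₀ ≤ 0 := not_lt.mp hcon
    nlinarith [sq_nonneg (F x₀)]
  have hG' : ContDiffOn ℝ ∞ (deriv G) s := hG.deriv_of_isOpen hs (by simp)
  set δ := (E x₀ * G x₀ - F x₀ ^ 2) / G x₀ with hδ
  have hδpos : 0 < δ := div_pos hdet hGpos
  set A := (deriv G x₀) ^ 2 / (4 * G x₀) with hA
  have hA0 : 0 ≤ A := by positivity
  set c := Real.sqrt (A / δ) + 1 with hc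
  have hcpos : 0 < c := by positivity
  have hc2 : A / δ < c ^ 2 := by
    have h1 : (Real.sqrt (A / δ)) ^ 2 = A / δ := Real.sq_sqrt (by positivity)
    nlinarith [Real.sqrt_nonneg (A / δ)]
  set D : ℝ → ℝ := fun x => (E x * G x - F x ^ 2) / G x - (deriv G x) ^ 2 / (4 * G x * c ^ 2)
    with hD
  have hD0 : 0 < D x₀ := by
    have h1 : (deriv G x₀) ^ 2 / (4 * G x₀ * c ^ 2) = A / c ^ 2 := by
      rw [hA]
      field_simp
    have hc2pos : 0 < c ^ 2 := by positivity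
    have h2 : A / c ^ 2 < δ := by
      rw [div_lt_iff₀ hc2pos]
      have h3 := (div_lt_iff₀ hδpos).mp hc2
      linarith
    simp only [hD]
    rw [h1]
    linarith
  -- the open set where everything is positive
  have hopenG : IsOpen (s ∩ G ⁻¹' Set.Ioi 0) := hG.continuousOn.isOpen_inter_preimage hs isOpen_Ioi
  have hDs : ContDiffOn ℝ ∞ D (s ∩ G ⁻¹' Set.Ioi 0) := by
    have hne : ∀ x ∈ s ∩ G ⁻¹' Set.Ioi 0, G x ≠ 0 := fun x hx => ne_of_gt hx.2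
    have hsub : s ∩ G ⁻¹' Set.Ioi 0 ⊆ s := Set.inter_subset_left
    have hE' := hE.mono hsub
    have hF' := hF.mono hsub
    have hG1 := hG.mono hsub
    have hG2 := hG'.mono hsub
    apply ContDiffOn.sub
    · exact ((hE'.mul hG1).sub (hF'.pow 2)).div hG1 hne
    · apply ContDiffOn.div (hG2.pow 2)
      · exact (contDiffOn_const.mul hG1).mul contDiffOn_const
      · intro x hx
        have h1 := hne x hx
        have h2 : c ^ 2 ≠ 0 := by positivity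
        positivity
  have hopenD : IsOpen ((s ∩ G ⁻¹' Set.Ioi 0) ∩ D ⁻¹' Set.Ioi 0) :=
    hDs.continuousOn.isOpen_inter_preimage hopenG isOpen_Ioi
  have hmem : x₀ ∈ (s ∩ G ⁻¹' Set.Ioi 0) ∩ D ⁻¹' Set.Ioi 0 := ⟨⟨hx₀, hGpos⟩, hD0⟩
  obtain ⟨ε, hε, hball⟩ := Metric.isOpen_iff.mp hopenD x₀ hmem
  have hI : Set.Ioo (x₀ - ε) (x₀ + ε) ⊆ (s ∩ G ⁻¹' Set.Ioi 0) ∩ D ⁻¹' Set.Ioi 0 := by
    intro x hx
    apply hball
    rw [Metric.mem_ball, Real.dist_eq, abs_lt]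
    constructor <;> linarith [hx.1, hx.2]
  have hx₀I : x₀ ∈ Set.Ioo (x₀ - ε) (x₀ + ε) := ⟨by linarith, by linarith⟩
  have hIs : Set.Ioo (x₀ - ε) (x₀ + ε) ⊆ s := fun x hx => (hI hx).1.1
  have hGI : ∀ x ∈ Set.Ioo (x₀ - ε) (x₀ + ε), 0 < G x := fun x hx => (hI hx).1.2
  have hDI : ∀ x ∈ Set.Ioo (x₀ - ε) (x₀ + ε), 0 < D x := fun x hx => (hI hx).2
  have hEc := hE.mono hIs
  have hFc := hF.mono hIs
  have hGc := hG.mono hIs
  have hDc : ContDiffOn ℝ ∞ D (Set.Ioo (x₀ - ε) (x₀ + ε)) := hDs.mono (fun x hx => (hI hx).1)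
  -- the three one-variable functions
  set ρ : ℝ → ℝ := fun x => Real.sqrt (G x) / c with hρ
  set ψφ : ℝ → ℝ := fun x => c * F x / G x with hψφ
  set ψh : ℝ → ℝ := fun x => Real.sqrt (D x) with hψh
  have hρc : ContDiffOn ℝ ∞ ρ (Set.Ioo (x₀ - ε) (x₀ + ε)) :=
    (hGc.sqrt (fun x hx => ne_of_gt (hGI x hx))).div_const c
  have hψφc : ContDiffOn ℝ ∞ ψφ (Set.Ioo (x₀ - ε) (x₀ + ε)) :=
    (contDiffOn_const.mul hFc).div hGc (fun x hx => ne_of_gt (hGI x hx))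
  have hψhc : ContDiffOn ℝ ∞ ψh (Set.Ioo (x₀ - ε) (x₀ + ε)) :=
    hDc.sqrt (fun x hx => ne_of_gt (hDI x hx))
  have hφc := prim_contDiffOn hx₀I hψφc
  have hhc := prim_contDiffOn hx₀I hψhc
  have hfst : ∀ q ∈ Set.Ioo (x₀ - ε) (x₀ + ε) ×ˢ (Set.univ : Set ℝ),
      (q : ℝ × ℝ).1 ∈ Set.Ioo (x₀ - ε) (x₀ + ε) := fun q hq => hq.1
  have hθc : ContDiffOn ℝ ∞ (fun q : ℝ × ℝ => c * q.2 + prim ψφ x₀ q.1)
      (Set.Ioo (x₀ - ε) (x₀ + ε) ×ˢ (Set.univ : Set ℝ)) :=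
    (contDiffOn_const.mul contDiff_snd.contDiffOn).add
      (hφc.comp contDiff_fst.contDiffOn hfst)
  have hρfst : ContDiffOn ℝ ∞ (fun q : ℝ × ℝ => ρ q.1)
      (Set.Ioo (x₀ - ε) (x₀ + ε) ×ˢ (Set.univ : Set ℝ)) :=
    hρc.comp contDiff_fst.contDiffOn hfst
  refine ⟨Set.Ioo (x₀ - ε) (x₀ + ε) ×ˢ (Set.univ : Set ℝ), isOpen_Ioo.prod isOpen_univ,
    ⟨hx₀I, Set.mem_univ _⟩, surfX ρ (prim ψφ x₀) c, surfY ρ (prim ψφ x₀) c, surfZ (prim ψh x₀),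
    ?_, ?_, ?_, ?_⟩
  · exact hρfst.mul (Real.contDiff_cos.comp_contDiffOn hθc)
  · exact hρfst.mul (Real.contDiff_sin.comp_contDiffOn hθc)
  · exact hhc.comp contDiff_fst.contDiffOn hfst
  · intro q hq
    have hx := hfst q hq
    have hxs : q.1 ∈ s := hIs hx
    have hGx : 0 < G q.1 := hGI _ hx
    have hDx : 0 < D q.1 := hDI _ hx
    have hGd : HasDerivAt G (deriv G q.1) q.1 :=
      ((hG.differentiableOn (by simp)).differentiableAt (hs.mem_nhds hxs)).hasDerivAt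
    have hρd : HasDerivAt ρ (deriv G q.1 / (2 * Real.sqrt (G q.1)) / c) q.1 :=
      (hGd.sqrt (ne_of_gt hGx)).div_const c
    have hφd : HasDerivAt (prim ψφ x₀) (c * F q.1 / G q.1) q.1 :=
      prim_hasDerivAt hx₀I hψφc.continuousOn hx
    have hhd : HasDerivAt (prim ψh x₀) (Real.sqrt (D q.1)) q.1 :=
      prim_hasDerivAt hx₀I hψhc.continuousOn hx
    rw [surfX_dx hρd hφd, surfX_dy hρd hφd, surfY_dx hρd hφd, surfY_dy hρd hφd,
      surfZ_dx hhd, surfZ_dy hhd]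
    have hsG : Real.sqrt (G q.1) ^ 2 = G q.1 := Real.sq_sqrt hGx.le
    have hsGpos : 0 < Real.sqrt (G q.1) := Real.sqrt_pos.mpr hGx
    have hsD : Real.sqrt (D q.1) ^ 2 = D q.1 := Real.sq_sqrt hDx.le
    have hsc := Real.sin_sq_add_cos_sq (c * q.2 + prim ψφ x₀ q.1)
    have hDval : D q.1 = (E q.1 * G q.1 - F q.1 ^ 2) / G q.1
        - (deriv G q.1) ^ 2 / (4 * G q.1 * c ^ 2) := rfl
    set sG := Real.sqrt (G q.1) with hsGdef
    set sD := Real.sqrt (D q.1) with hsDdef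
    set S := Real.sin (c * q.2 + prim ψφ x₀ q.1) with hSdef
    set C := Real.cos (c * q.2 + prim ψφ x₀ q.1) with hCdef
    set g' := deriv G q.1 with hg'def
    have hρval : ρ q.1 = sG / c := rfl
    rw [hρval]
    have hcne : c ≠ 0 := ne_of_gt hcpos
    have hsGne : sG ≠ 0 := ne_of_gt hsGpos
    have hGne : G q.1 ≠ 0 := ne_of_gt hGx
    refine ⟨?_, ?_, ?_⟩
    · have h1 : (g' / (2 * sG) / c * C - sG / c * (c * F q.1 / G q.1) * S) ^ 2
          + (g' / (2 * sG) / c * S + sG / c * (c * F q.1 / G q.1) * C) ^ 2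
          = (g' / (2 * sG) / c) ^ 2 + (sG / c * (c * F q.1 / G q.1)) ^ 2 := by
        linear_combination ((g' / (2 * sG) / c) ^ 2 + (sG / c * (c * F q.1 / G q.1)) ^ 2) * hsc
      rw [h1, hsD, hDval, ← hsG]
      field_simp
      ring
    · have h1 : (g' / (2 * sG) / c * C - sG / c * (c * F q.1 / G q.1) * S) * (-c * (sG / c) * S)
          + (g' / (2 * sG) / c * S + sG / c * (c * F q.1 / G q.1) * C) * (c * (sG / c) * C)
          + sD * 0 = c * (sG / c) * (sG / c * (c * F q.1 / G q.1)) := by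
        linear_combination (c * (sG / c) * (sG / c * (c * F q.1 / G q.1))) * hsc
      rw [h1, ← hsG]
      field_simp
    · have h1 : (-c * (sG / c) * S) ^ 2 + (c * (sG / c) * C) ^ 2 + (0 : ℝ) ^ 2
          = (c * (sG / c)) ^ 2 := by
        linear_combination ((c * (sG / c)) ^ 2) * hsc
      rw [h1, ← hsG]
      field_simp

end Vale.Agent.Lib.P229
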