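import Mathlib

/-!
# P229: smooth primitives on an open interval
-/

namespace Vale.Agent.Lib.P229

open scoped ContDiff
open MeasureTheory

/-- the primitive `x ↦ ∫ t in x₀..x, ψ t` -/
noncomputable def prim (ψ : ℝ → ℝ) (x₀ : ℝ) : ℝ → ℝ := fun x => ∫ t in x₀..x, ψ t

theorem prim_hasDerivAt {ψ : ℝ → ℝ} {a b x₀ : ℝ} (hx₀ : x₀ ∈ Set.Ioo a b)
    (hψ : ContinuousOn ψ (Set.Ioo a b)) {x : ℝ} (hx : x ∈ Set.Ioo a b) :
    HasDerivAt (prim ψ x₀) (ψ x) x := by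
  unfold prim
  apply intervalIntegral.integral_hasDerivAt_right
  · apply ContinuousOn.intervalIntegrable
    apply hψ.mono
    intro t ht
    rw [Set.mem_uIcc] at ht
    rcases ht with ⟨h1, h2⟩ | ⟨h1, h2⟩
    · exact ⟨lt_of_lt_of_le hx₀.1 h1, lt_of_le_of_lt h2 hx.2⟩
    · exact ⟨lt_of_lt_of_le hx.1 h1, lt_of_le_of_lt h2 hx₀.2⟩
  · exact hψ.stronglyMeasurableAtFilter isOpen_Ioo x hx
  · exact hψ.continuousAt (isOpen_Ioo.mem_nhds hx)

theorem prim_contDiffOn {ψ : ℝ → ℝ} {a b x₀ : ℝ} (hx₀ : x₀ ∈ Set.Ioo a b)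
    (hψ : ContDiffOn ℝ ∞ ψ (Set.Ioo a b)) :
    ContDiffOn ℝ ∞ (prim ψ x₀) (Set.Ioo a b) := by
  rw [contDiffOn_infty_iff_deriv_of_isOpen isOpen_Ioo]
  constructor
  · intro x hx
    exact (prim_hasDerivAt hx₀ hψ.continuousOn hx).differentiableAt.differentiableWithinAt
  · apply hψ.congr
    intro x hx
    exact (prim_hasDerivAt hx₀ hψ.continuousOn hx).deriv

end Vale.Agent.Lib.P229
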