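import Vale.Agent.Lib.P229.Main

/-!
# P229: realization on a whole strip of metrics whose coefficients depend on one coordinate
-/

namespace Vale.Agent.Lib.P229

open scoped ContDiff

/-- Core statement: on an open interval `(a, b)` on which `G > 0` and
`(G')² < 4 c² (E G - F²)` (written with the quotient below) the helicoidal surface with pitch
constant `c` realizes the metric on the whole strip `(a, b) × ℝ`. -/
theorem strip_realization (E F G : ℝ → ℝ) (s : Set ℝ) (hs : IsOpen s)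
    (hE : ContDiffOn ℝ ∞ E s) (hF : ContDiffOn ℝ ∞ F s) (hG : ContDiffOn ℝ ∞ G s)
    (a b c : ℝ) (hab : a < b) (hIs : Set.Ioo a b ⊆ s) (hcpos : 0 < c)
    (hGI : ∀ x ∈ Set.Ioo a b, 0 < G x)
    (hDI : ∀ x ∈ Set.Ioo a b,
      0 < (E x * G x - F x ^ 2) / G x - (deriv G x) ^ 2 / (4 * G x * c ^ 2)) :
    ∃ X Y Z : ℝ × ℝ → ℝ,
      ContDiffOn ℝ ∞ X (Set.Ioo a b ×ˢ (Set.univ : Set ℝ)) ∧
      ContDiffOn ℝ ∞ Y (Set.Ioo a b ×ˢ (Set.univ : Set ℝ)) ∧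
      ContDiffOn ℝ ∞ Z (Set.Ioo a b ×ˢ (Set.univ : Set ℝ)) ∧
      ∀ q ∈ Set.Ioo a b ×ˢ (Set.univ : Set ℝ),
        (fderiv ℝ X q (1, 0)) ^ 2 + (fderiv ℝ Y q (1, 0)) ^ 2 + (fderiv ℝ Z q (1, 0)) ^ 2
          = E q.1 ∧
        fderiv ℝ X q (1, 0) * fderiv ℝ X q (0, 1) + fderiv ℝ Y q (1, 0) * fderiv ℝ Y q (0, 1)
          + fderiv ℝ Z q (1, 0) * fderiv ℝ Z q (0, 1) = F q.1 ∧
        (fderiv ℝ X q (0, 1)) ^ 2 + (fderiv ℝ Y q (0, 1)) ^ 2 + (fderiv ℝ Z q (0, 1)) ^ 2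
          = G q.1 := by
  have hG' : ContDiffOn ℝ ∞ (deriv G) s := hG.deriv_of_isOpen hs (by simp)
  set x₀ : ℝ := (a + b) / 2 with hx₀def
  have hx₀I : x₀ ∈ Set.Ioo a b := ⟨by rw [hx₀def]; linarith, by rw [hx₀def]; linarith⟩
  set D : ℝ → ℝ := fun x => (E x * G x - F x ^ 2) / G x - (deriv G x) ^ 2 / (4 * G x * c ^ 2)
    with hD
  have hEc := hE.mono hIs
  have hFc := hF.mono hIs
  have hGc := hG.mono hIs
  have hG2 := hG'.mono hIs
  have hDc : ContDiffOn ℝ ∞ D (Set.Ioo a b) := by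
    have hne : ∀ x ∈ Set.Ioo a b, G x ≠ 0 := fun x hx => ne_of_gt (hGI x hx)
    apply ContDiffOn.sub
    · exact ((hEc.mul hGc).sub (hFc.pow 2)).div hGc hne
    · apply ContDiffOn.div (hG2.pow 2)
      · exact (contDiffOn_const.mul hGc).mul contDiffOn_const
      · intro x hx
        have h1 := hne x hx
        have h2 : c ^ 2 ≠ 0 := by positivity
        positivity
  -- the three one-variable functions
  set ρ : ℝ → ℝ := fun x => Real.sqrt (G x) / c with hρ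
  set ψφ : ℝ → ℝ := fun x => c * F x / G x with hψφ
  set ψh : ℝ → ℝ := fun x => Real.sqrt (D x) with hψh
  have hρc : ContDiffOn ℝ ∞ ρ (Set.Ioo a b) :=
    (hGc.sqrt (fun x hx => ne_of_gt (hGI x hx))).div_const c
  have hψφc : ContDiffOn ℝ ∞ ψφ (Set.Ioo a b) :=
    (contDiffOn_const.mul hFc).div hGc (fun x hx => ne_of_gt (hGI x hx))
  have hψhc : ContDiffOn ℝ ∞ ψh (Set.Ioo a b) :=
    hDc.sqrt (fun x hx => ne_of_gt (hDI x hx))
  have hφc := prim_contDiffOn hx₀I hψφc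
  have hhc := prim_contDiffOn hx₀I hψhc
  have hfst : ∀ q ∈ Set.Ioo a b ×ˢ (Set.univ : Set ℝ),
      (q : ℝ × ℝ).1 ∈ Set.Ioo a b := fun q hq => hq.1
  have hθc : ContDiffOn ℝ ∞ (fun q : ℝ × ℝ => c * q.2 + prim ψφ x₀ q.1)
      (Set.Ioo a b ×ˢ (Set.univ : Set ℝ)) :=
    (contDiffOn_const.mul contDiff_snd.contDiffOn).add
      (hφc.comp contDiff_fst.contDiffOn hfst)
  have hρfst : ContDiffOn ℝ ∞ (fun q : ℝ × ℝ => ρ q.1)
      (Set.Ioo a b ×ˢ (Set.univ : Set ℝ)) :=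
    hρc.comp contDiff_fst.contDiffOn hfst
  refine ⟨surfX ρ (prim ψφ x₀) c, surfY ρ (prim ψφ x₀) c, surfZ (prim ψh x₀),
    ?_, ?_, ?_, ?_⟩
  · exact hρfst.mul (Real.contDiff_cos.comp_contDiffOn hθc)
  · exact hρfst.mul (Real.contDiff_sin.comp_contDiffOn hθc)
  · exact hhc.comp contDiff_fst.contDiffOn hfst
  · intro q hq
    have hx := hfst q hq
    have hxs : q.1 ∈ s := hIs hx
    have hGx : 0 < G q.1 := hGI _ hx
    have hDx : 0 < D q.1 := hDI _ hx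
    have hGd : HasDerivAt G (deriv G q.1) q.1 :=
      ((hG.differentiableOn (by simp)).differentiableAt (hs.mem_nhds hxs)).hasDerivAt
    have hρd : HasDerivAt ρ (deriv G q.1 / (2 * Real.sqrt (G q.1)) / c) q.1 :=
      (hGd.sqrt (ne_of_gt hGx)).div_const c
    have hφd : HasDerivAt (prim ψφ x₀) (c * F q.1 / G q.1) q.1 :=
      prim_hasDerivAt hx₀I hψφc.continuousOn hx
    have hhd : HasDerivAt (prim ψh x₀) (Real.sqrt (D q.1)) q.1 :=
      prim_hasDerivAt hx₀I hψhc.continuousOn hx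
    rw [surfX_dx hρd hφd, surfX_dy hρd hφd, surfY_dx hρd hφd, surfY_dy hρd hφd,
      surfZ_dx hhd, surfZ_dy hhd]
    have hsG : Real.sqrt (G q.1) ^ 2 = G q.1 := Real.sq_sqrt hGx.le
    have hsGpos : 0 < Real.sqrt (G q.1) := Real.sqrt_pos.mpr hGx
    have hsD : Real.sqrt (D q.1) ^ 2 = D q.1 := Real.sq_sqrt hDx.le
    have hsc := Real.sin_sq_add_cos_sq (c * q.2 + prim ψφ x₀ q.1)
    have hDval : D q.1 = (E q.1 * G q.1 - F q.1 ^ 2) / G q.1
        - (deriv G q.1) ^ 2 / (4 * G q.1 * c ^ 2) := rfl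
    set sG := Real.sqrt (G q.1) with hsGdef
    set sD := Real.sqrt (D q.1) with hsDdef
    set S := Real.sin (c * q.2 + prim ψφ x₀ q.1) with hSdef
    set C := Real.cos (c * q.2 + prim ψφ x₀ q.1) with hCdef
    set g' := deriv G q.1 with hg'def
    have hρval : ρ q.1 = sG / c := rfl
    rw [hρval]
    have hcne : c ≠ 0 := ne_of_gt hcpos
    have hsGne : sG ≠ 0 := ne_of_gt hsGpos
    have hGne : G q.1 ≠ 0 := ne_of_gt hGx
    refine ⟨?_, ?_, ?_⟩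
    · have h1 : (g' / (2 * sG) / c * C - sG / c * (c * F q.1 / G q.1) * S) ^ 2
          + (g' / (2 * sG) / c * S + sG / c * (c * F q.1 / G q.1) * C) ^ 2
          = (g' / (2 * sG) / c) ^ 2 + (sG / c * (c * F q.1 / G q.1)) ^ 2 := by
        linear_combination ((g' / (2 * sG) / c) ^ 2 + (sG / c * (c * F q.1 / G q.1)) ^ 2) * hsc
      rw [h1, hsD, hDval, ← hsG]
      field_simp
      ring
    · have h1 : (g' / (2 * sG) / c * C - sG / c * (c * F q.1 / G q.1) * S) * (-c * (sG / c) * S)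
          + (g' / (2 * sG) / c * S + sG / c * (c * F q.1 / G q.1) * C) * (c * (sG / c) * C)
          + sD * 0 = c * (sG / c) * (sG / c * (c * F q.1 / G q.1)) := by
        linear_combination (c * (sG / c) * (sG / c * (c * F q.1 / G q.1))) * hsc
      rw [h1, ← hsG]
      field_simp
    · have h1 : (-c * (sG / c) * S) ^ 2 + (c * (sG / c) * C) ^ 2 + (0 : ℝ) ^ 2
          = (c * (sG / c)) ^ 2 := by
        linear_combination ((c * (sG / c)) ^ 2) * hsc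
      rw [h1, ← hsG]
      field_simp

/-- Semi-global statement: if the form is positive definite at every point of a compact interval
`[a, b] ⊆ s`, the metric is realized on the whole strip `(a, b) × ℝ`. -/
theorem compact_realization (E F G : ℝ → ℝ) (s : Set ℝ) (hs : IsOpen s)
    (hE : ContDiffOn ℝ ∞ E s) (hF : ContDiffOn ℝ ∞ F s) (hG : ContDiffOn ℝ ∞ G s)
    (a b : ℝ) (hab : a < b) (hIcc : Set.Icc a b ⊆ s)
    (hpos : ∀ x ∈ Set.Icc a b, 0 < E x ∧ 0 < E x * G x - F x ^ 2) :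
    ∃ X Y Z : ℝ × ℝ → ℝ,
      ContDiffOn ℝ ∞ X (Set.Ioo a b ×ˢ (Set.univ : Set ℝ)) ∧
      ContDiffOn ℝ ∞ Y (Set.Ioo a b ×ˢ (Set.univ : Set ℝ)) ∧
      ContDiffOn ℝ ∞ Z (Set.Ioo a b ×ˢ (Set.univ : Set ℝ)) ∧
      ∀ q ∈ Set.Ioo a b ×ˢ (Set.univ : Set ℝ),
        (fderiv ℝ X q (1, 0)) ^ 2 + (fderiv ℝ Y q (1, 0)) ^ 2 + (fderiv ℝ Z q (1, 0)) ^ 2
          = E q.1 ∧
        fderiv ℝ X q (1, 0) * fderiv ℝ X q (0, 1) + fderiv ℝ Y q (1, 0) * fderiv ℝ Y q (0, 1)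
          + fderiv ℝ Z q (1, 0) * fderiv ℝ Z q (0, 1) = F q.1 ∧
        (fderiv ℝ X q (0, 1)) ^ 2 + (fderiv ℝ Y q (0, 1)) ^ 2 + (fderiv ℝ Z q (0, 1)) ^ 2
          = G q.1 := by
  have hG' : ContDiffOn ℝ ∞ (deriv G) s := hG.deriv_of_isOpen hs (by simp)
  have hGpos : ∀ x ∈ Set.Icc a b, 0 < G x := by
    intro x hx
    obtain ⟨h1, h2⟩ := hpos x hx
    by_contra hcon
    have h3 : G x ≤ 0 := not_lt.mp hcon
    nlinarith [sq_nonneg (F x)]
  -- the continuous function whose supremum bounds the pitch constant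
  have hcont : ContinuousOn (fun x => (deriv G x) ^ 2 / (4 * (E x * G x - F x ^ 2)))
      (Set.Icc a b) := by
    have hE1 := (hE.continuousOn).mono hIcc
    have hF1 := (hF.continuousOn).mono hIcc
    have hG1 := (hG.continuousOn).mono hIcc
    have hG2 := (hG'.continuousOn).mono hIcc
    apply ContinuousOn.div (hG2.pow 2)
    · exact continuousOn_const.mul ((hE1.mul hG1).sub (hF1.pow 2))
    · intro x hx
      have h1 := (hpos x hx).2
      positivity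
  obtain ⟨M, hM⟩ := isCompact_Icc.bddAbove_image hcont
  have hM' : ∀ x ∈ Set.Icc a b, (deriv G x) ^ 2 / (4 * (E x * G x - F x ^ 2)) ≤ M :=
    fun x hx => hM (Set.mem_image_of_mem _ hx)
  set c : ℝ := Real.sqrt (|M| + 1) with hc
  have hc2 : c ^ 2 = |M| + 1 := Real.sq_sqrt (by positivity)
  have hcpos : 0 < c := Real.sqrt_pos.mpr (by positivity)
  have hsub : Set.Ioo a b ⊆ Set.Icc a b := Set.Ioo_subset_Icc_self
  refine strip_realization E F G s hs hE hF hG a b c hab (fun x hx => hIcc (hsub hx)) hcpos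
    (fun x hx => hGpos x (hsub hx)) ?_
  intro x hx
  have hx' := hsub hx
  have hGx := hGpos x hx'
  have hdet := (hpos x hx').2
  have h1 := hM' x hx'
  rw [div_le_iff₀ (by positivity)] at h1
  have h2 : M < c ^ 2 := by
    rw [hc2]
    linarith [le_abs_self M]
  have h3 : (deriv G x) ^ 2 < c ^ 2 * (4 * (E x * G x - F x ^ 2)) := by
    have h4 : M * (4 * (E x * G x - F x ^ 2)) < c ^ 2 * (4 * (E x * G x - F x ^ 2)) :=
      mul_lt_mul_of_pos_right h2 (by positivity)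
    linarith
  have hc2pos : 0 < c ^ 2 := by positivity
  have h5 : (E x * G x - F x ^ 2) / G x - (deriv G x) ^ 2 / (4 * G x * c ^ 2)
      = (c ^ 2 * (4 * (E x * G x - F x ^ 2)) - (deriv G x) ^ 2) / (4 * G x * c ^ 2) := by
    field_simp
  rw [h5]
  apply div_pos
  · linarith
  · positivity

/-- Pointwise statement with an explicit strip: at every point of positive definiteness the
metric is realized on a full vertical strip `(x₀ - ε, x₀ + ε) × ℝ`. -/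
theorem pointwise_strip_realization (E F G : ℝ → ℝ) (s : Set ℝ) (hs : IsOpen s)
    (hE : ContDiffOn ℝ ∞ E s) (hF : ContDiffOn ℝ ∞ F s) (hG : ContDiffOn ℝ ∞ G s)
    (x₀ : ℝ) (hx₀ : x₀ ∈ s) (hEpos : 0 < E x₀) (hdet : 0 < E x₀ * G x₀ - F x₀ ^ 2) :
    ∃ ε : ℝ, 0 < ε ∧ ∃ X Y Z : ℝ × ℝ → ℝ,
      ContDiffOn ℝ ∞ X (Set.Ioo (x₀ - ε) (x₀ + ε) ×ˢ (Set.univ : Set ℝ)) ∧
      ContDiffOn ℝ ∞ Y (Set.Ioo (x₀ - ε) (x₀ + ε) ×ˢ (Set.univ : Set ℝ)) ∧
      ContDiffOn ℝ ∞ Z (Set.Ioo (x₀ - ε) (x₀ + ε) ×ˢ (Set.univ : Set ℝ)) ∧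
      ∀ q ∈ Set.Ioo (x₀ - ε) (x₀ + ε) ×ˢ (Set.univ : Set ℝ),
        (fderiv ℝ X q (1, 0)) ^ 2 + (fderiv ℝ Y q (1, 0)) ^ 2 + (fderiv ℝ Z q (1, 0)) ^ 2
          = E q.1 ∧
        fderiv ℝ X q (1, 0) * fderiv ℝ X q (0, 1) + fderiv ℝ Y q (1, 0) * fderiv ℝ Y q (0, 1)
          + fderiv ℝ Z q (1, 0) * fderiv ℝ Z q (0, 1) = F q.1 ∧
        (fderiv ℝ X q (0, 1)) ^ 2 + (fderiv ℝ Y q (0, 1)) ^ 2 + (fderiv ℝ Z q (0, 1)) ^ 2
          = G q.1 := by
  have hopenE : IsOpen (s ∩ E ⁻¹' Set.Ioi 0) := hE.continuousOn.isOpen_inter_preimage hs isOpen_Ioi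
  have hdetc : ContinuousOn (fun x => E x * G x - F x ^ 2) (s ∩ E ⁻¹' Set.Ioi 0) :=
    (((hE.continuousOn).mul (hG.continuousOn)).sub ((hF.continuousOn).pow 2)).mono
      Set.inter_subset_left
  have hopen : IsOpen ((s ∩ E ⁻¹' Set.Ioi 0) ∩ (fun x => E x * G x - F x ^ 2) ⁻¹' Set.Ioi 0) :=
    hdetc.isOpen_inter_preimage hopenE isOpen_Ioi
  have hmem : x₀ ∈ (s ∩ E ⁻¹' Set.Ioi 0) ∩ (fun x => E x * G x - F x ^ 2) ⁻¹' Set.Ioi 0 :=
    ⟨⟨hx₀, hEpos⟩, hdet⟩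
  obtain ⟨ε, hε, hball⟩ := Metric.isOpen_iff.mp hopen x₀ hmem
  have hI : Set.Icc (x₀ - ε / 2) (x₀ + ε / 2) ⊆
      (s ∩ E ⁻¹' Set.Ioi 0) ∩ (fun x => E x * G x - F x ^ 2) ⁻¹' Set.Ioi 0 := by
    intro x hx
    apply hball
    rw [Metric.mem_ball, Real.dist_eq, abs_lt]
    constructor <;> linarith [hx.1, hx.2]
  refine ⟨ε / 2, by linarith, ?_⟩
  exact compact_realization E F G s hs hE hF hG (x₀ - ε / 2) (x₀ + ε / 2) (by linarith)
    (fun x hx => (hI hx).1.1) (fun x hx => ⟨(hI hx).1.2, (hI hx).2⟩)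

end Vale.Agent.Lib.P229
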