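import Vale.Agent.Lib.P229.Prim

/-!
# P229: helicoidal surfaces realizing metrics that depend on one coordinate
-/

namespace Vale.Agent.Lib.P229

open scoped ContDiff

section surf

variable (ρ φ h : ℝ → ℝ) (c : ℝ)

/-- first coordinate of the surface -/
noncomputable def surfX : ℝ × ℝ → ℝ := fun q => ρ q.1 * Real.cos (c * q.2 + φ q.1)

/-- second coordinate of the surface -/
noncomputable def surfY : ℝ × ℝ → ℝ := fun q => ρ q.1 * Real.sin (c * q.2 + φ q.1)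

/-- third coordinate of the surface -/
noncomputable def surfZ : ℝ × ℝ → ℝ := fun q => h q.1

variable {ρ φ h c}

theorem theta_hasFDerivAt {q : ℝ × ℝ} {φ' : ℝ} (hφ : HasDerivAt φ φ' q.1) :
    HasFDerivAt (fun q : ℝ × ℝ => c * q.2 + φ q.1)
      (c • ContinuousLinearMap.snd ℝ ℝ ℝ + φ' • ContinuousLinearMap.fst ℝ ℝ ℝ) q :=
  ((hasFDerivAt_snd).const_mul c).add (hφ.comp_hasFDerivAt q hasFDerivAt_fst)

theorem surfX_hasFDerivAt {q : ℝ × ℝ} {ρ' φ' : ℝ} (hρ : HasDerivAt ρ ρ' q.1)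
    (hφ : HasDerivAt φ φ' q.1) :
    HasFDerivAt (surfX ρ φ c)
      (ρ q.1 • (-Real.sin (c * q.2 + φ q.1) •
          (c • ContinuousLinearMap.snd ℝ ℝ ℝ + φ' • ContinuousLinearMap.fst ℝ ℝ ℝ)) +
        Real.cos (c * q.2 + φ q.1) • (ρ' • ContinuousLinearMap.fst ℝ ℝ ℝ)) q :=
  (hρ.comp_hasFDerivAt q hasFDerivAt_fst).mul (theta_hasFDerivAt hφ).cos

theorem surfY_hasFDerivAt {q : ℝ × ℝ} {ρ' φ' : ℝ} (hρ : HasDerivAt ρ ρ' q.1)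
    (hφ : HasDerivAt φ φ' q.1) :
    HasFDerivAt (surfY ρ φ c)
      (ρ q.1 • (Real.cos (c * q.2 + φ q.1) •
          (c • ContinuousLinearMap.snd ℝ ℝ ℝ + φ' • ContinuousLinearMap.fst ℝ ℝ ℝ)) +
        Real.sin (c * q.2 + φ q.1) • (ρ' • ContinuousLinearMap.fst ℝ ℝ ℝ)) q :=
  (hρ.comp_hasFDerivAt q hasFDerivAt_fst).mul (theta_hasFDerivAt hφ).sin

theorem surfZ_hasFDerivAt {q : ℝ × ℝ} {h' : ℝ} (hh : HasDerivAt h h' q.1) :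
    HasFDerivAt (surfZ h) (h' • ContinuousLinearMap.fst ℝ ℝ ℝ) q :=
  hh.comp_hasFDerivAt q hasFDerivAt_fst

theorem surfX_dx {q : ℝ × ℝ} {ρ' φ' : ℝ} (hρ : HasDerivAt ρ ρ' q.1) (hφ : HasDerivAt φ φ' q.1) :
    fderiv ℝ (surfX ρ φ c) q (1, 0) =
      ρ' * Real.cos (c * q.2 + φ q.1) - ρ q.1 * φ' * Real.sin (c * q.2 + φ q.1) := by
  rw [(surfX_hasFDerivAt hρ hφ).fderiv]
  simp
  ring

theorem surfX_dy {q : ℝ × ℝ} {ρ' φ' : ℝ} (hρ : HasDerivAt ρ ρ' q.1) (hφ : HasDerivAt φ φ' q.1) :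
    fderiv ℝ (surfX ρ φ c) q (0, 1) = - c * ρ q.1 * Real.sin (c * q.2 + φ q.1) := by
  rw [(surfX_hasFDerivAt hρ hφ).fderiv]
  simp
  ring

theorem surfY_dx {q : ℝ × ℝ} {ρ' φ' : ℝ} (hρ : HasDerivAt ρ ρ' q.1) (hφ : HasDerivAt φ φ' q.1) :
    fderiv ℝ (surfY ρ φ c) q (1, 0) =
      ρ' * Real.sin (c * q.2 + φ q.1) + ρ q.1 * φ' * Real.cos (c * q.2 + φ q.1) := by
  rw [(surfY_hasFDerivAt hρ hφ).fderiv]
  simp
  ring

theorem surfY_dy {q : ℝ × ℝ} {ρ' φ' : ℝ} (hρ : HasDerivAt ρ ρ' q.1) (hφ : HasDerivAt φ φ' q.1) :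
    fderiv ℝ (surfY ρ φ c) q (0, 1) = c * ρ q.1 * Real.cos (c * q.2 + φ q.1) := by
  rw [(surfY_hasFDerivAt hρ hφ).fderiv]
  simp
  ring

theorem surfZ_dx {q : ℝ × ℝ} {h' : ℝ} (hh : HasDerivAt h h' q.1) :
    fderiv ℝ (surfZ h) q (1, 0) = h' := by
  rw [(surfZ_hasFDerivAt hh).fderiv]
  simp

theorem surfZ_dy {q : ℝ × ℝ} {h' : ℝ} (hh : HasDerivAt h h' q.1) :
    fderiv ℝ (surfZ h) q (0, 1) = 0 := by
  rw [(surfZ_hasFDerivAt hh).fderiv]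
  simp

end surf

end Vale.Agent.Lib.P229
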